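import Vale.Agent.P141.H198.RowCls
import Vale.Agent.P141.H305.TopDefs
import Vale.Agent.P141.H677.Split

/-!
# P141, line (A), top: row classes of the label vertex, the nodes which are not stopped

`ce1a_of_r : H305.CE1r → H305.CE1a`.  The label points `x1` are sorted by the size of the row of
`u` (class `i`: mean square at most `2 ^ i √s`); the alive set is the same for all classes.
-/

namespace Vale.Agent.P141.H198

open Finset
open Vale.Agent.P141.PL (Pt loc cx mem_cb)
open Vale.Agent.P141.PL.H315 (iv cube3 avg Tri A2)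
open Vale.Agent.P141.PL.H560 (cbs bx0 loc_sum0 loc_congr0)
open Vale.Agent.P141.PL.H317 (cube3_eq crn)
open Vale.Agent.P141.H48 (US ES cst)
open Vale.Agent.P141.H136 (comp cx_cx mem_cbs')
open Vale.Agent.P141.H579 (cosA nrt)
open Vale.Agent.P141.H971 (Cen)
open Vale.Agent.P141.H677 (cv norm_cv cen_coord comp_coord)

noncomputable section

open scoped Classical

/-- the restricted cost reads the function on the cube only -/
theorem cosA_congr {A : ℕ → Pt → Prop} {o : ℤ} {K : ℕ} {x : Pt} {F0 F0' : Pt → ℝ}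
    {F1 F2 F3 : ℕ → Pt → Pt → ℝ} (h : ∀ p ∈ cube3 K x, F0 p = F0' p) :
    cosA A o K x F0 F1 F2 F3 = cosA A o K x F0' F1 F2 F3 := by
  unfold H579.cosA
  refine sum_congr rfl fun k hk => ?_
  congr 1
  refine sum_congr rfl fun m hm => ?_
  congr 1
  refine loc_congr0 fun p hp => h p ?_
  have hp' : cx k p = m := mem_cb.1 hp
  have hm' := (mem_filter.1 hm).1
  rw [mem_cbs'] at hm'
  rw [cube3_eq, mem_cb, ← hm', ← hp', cx_cx]
  congr 1
  have := (mem_Icc.1 hk).2
  omega

theorem cosA_sum_le (A : ℕ → Pt → Prop) (o : ℤ) (K : ℕ) (x : Pt) (I : ℕ) (F0 : ℕ → Pt → ℝ)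
    (F1 F2 F3 : ℕ → Pt → Pt → ℝ) :
    cosA A o K x (fun p => ∑ i ∈ range I, F0 i p) F1 F2 F3 ≤
      ∑ i ∈ range I, cosA A o K x (F0 i) F1 F2 F3 := by
  unfold H579.cosA
  rw [sum_comm]
  refine sum_le_sum fun k _ => ?_
  rw [← mul_sum]
  refine mul_le_mul_of_nonneg_left ?_ (by positivity)
  rw [sum_comm]
  refine sum_le_sum fun m _ => ?_
  rw [loc_sum0]
  exact abs_sum_le_sum_abs _ _

section cut

variable {ι : Type*} [Fintype ι]

/-- the vector edge in coordinates, cut to a set of label points -/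
def cutC (E : ℤ → Prop) (u : ℤ → ℤ → ι → ℝ) : ℤ → ℤ → ι → ℝ :=
  fun z x => if E z then u z x else 0

theorem cutC_sq_le (E : ℤ → Prop) (u : ℤ → ℤ → ι → ℝ) (z x : ℤ) :
    cutC E u z x ⬝ᵥ cutC E u z x ≤ u z x ⬝ᵥ u z x := by
  unfold cutC
  split_ifs
  · exact le_rfl
  · rw [zero_dotProduct]
    exact sum_nonneg fun i _ => mul_self_nonneg _

theorem cmp_cut (g : ℤ → ℤ → ℝ) (u v : ℤ → ℤ → ι → ℝ) (f : ℤ → ℕ) (I : ℕ) {y : Pt}
    (hy : f y.1 < I) :
    H305.cmp g u v y = ∑ i ∈ range I, H305.cmp g (cutC (fun z => f z = i) u) v y := by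
  rw [sum_eq_single_of_mem (f y.1) (mem_range.2 hy)]
  · unfold H305.cmp cutC
    rw [if_pos rfl]
  · intro i _ hi
    unfold H305.cmp cutC
    rw [if_neg (fun h => hi h.symm), zero_dotProduct, mul_zero]

end cut

section cls

variable {V : Type*} [NormedAddCommGroup V] [InnerProductSpace ℝ V] [FiniteDimensional ℝ V]

/-- **One row class is class data**, majorants: the norms of the full data. -/
theorem cls_of_cen {K : ℕ} {x : Pt} {s P : ℝ} (hs : 0 < s) {g : ℤ → ℤ → ℝ}
    {u v : ℤ → ℤ → V}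
    (H : Cen (iv K x.2.1) (iv K x.2.2) (iv K x.1) 1 √s 1 P g u v) (hq : 0 < √s) (i : ℕ) :
    H305.Cls K x s (2 ^ i) P (nrt (fun p => g p.1 p.2) u v) g
      (cutC (fun z => cls hq (avg (iv K x.2.1) fun y => ‖u z y‖ ^ 2) = i) fun z y => cv (u z y))
      (fun z y => cv (v z y)) := by
  have hss : √s ^ 2 = s := Real.sq_sqrt hs.le
  have hc := cen_coord H
  set T : ℤ → ℝ := fun z => avg (iv K x.2.1) fun y => ‖u z y‖ ^ 2 with hT
  have hT0 : ∀ z, 0 ≤ T z := fun z => avg_nonneg' fun y _ => by positivity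
  have hTs : avg (iv K x.1) T ≤ s := by
    have h := H.u_en
    rwa [one_mul, hss] at h
  have hu1 : ∀ z ∈ iv K x.1, ∀ y ∈ iv K x.2.1, ‖u z y‖ ^ 2 ≤ 1 := fun z hz y hy => by
    have h := H.u_le z hz y hy
    rwa [one_pow, one_mul] at h
  have hv1 : ∀ z ∈ iv K x.1, ∀ y ∈ iv K x.2.2, ‖v z y‖ ^ 2 ≤ 1 := fun z hz y hy => by
    have h := H.v_le z hz y hy
    rwa [one_pow, one_mul] at h
  refine ⟨fun p => rfl, H.a_le, fun z hz y hy => ⟨norm_nonneg _, ?_⟩,
    fun z hz y hy => ⟨norm_nonneg _, ?_⟩, fun z hz y hy => ?_, fun z hz y hy => ?_, ?_, ?_, ?_,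
    fun y hy => ?_, fun y hy => ?_, fun z hz => ?_, fun z hz w => ?_, fun z hz w => ?_⟩
  · have h := hu1 z hz y hy
    show ‖u z y‖ ≤ 1
    nlinarith [norm_nonneg (u z y)]
  · have h := hv1 z hz y hy
    show ‖v z y‖ ≤ 1
    nlinarith [norm_nonneg (v z y)]
  · refine (cutC_sq_le _ _ z y).trans (le_of_eq ?_)
    rw [← norm_cv]
    rfl
  · rw [← norm_cv]
    exact le_rfl
  · unfold PL.H315.A2
    rw [H550.avg_prod]
    exact hTs
  · unfold PL.H315.A2
    rw [H550.avg_prod]
    have h := H.v_en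
    rwa [one_mul, hss] at h
  · unfold PL.H315.A2
    have h := pow_le_pow_left₀ (H922.n2_nonneg _ _) H.a_n2 2
    rwa [H922.n2_sq, hss] at h
  · have h := H.a_row y hy
    rwa [one_mul] at h
  · rcases i with _ | j
    · refine (avg_mono' fun z _ => cutC_sq_le _ _ z y).trans ((hc.u_col y hy).trans ?_)
      rw [pow_zero, div_one]
      linarith
    · have b1 : (avg (iv K x.1) fun z =>
          cutC (fun z => cls hq (T z) = j + 1) (fun z y => cv (u z y)) z y ⬝ᵥ
            cutC (fun z => cls hq (T z) = j + 1) (fun z y => cv (u z y)) z y) ≤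
          avg (iv K x.1) fun z => (2 ^ j * √s)⁻¹ * T z := by
        refine avg_mono' fun z hz => ?_
        by_cases hz' : cls hq (T z) = j + 1
        · have hl := lt_of_cls hq hz'
          have hp : (0 : ℝ) < 2 ^ j * √s := by positivity
          refine (cutC_sq_le _ _ z y).trans ?_
          rw [← norm_cv]
          refine (hu1 z hz y hy).trans ?_
          rw [← inv_mul_cancel₀ hp.ne']
          exact mul_le_mul_of_nonneg_left hl.le (inv_nonneg.2 hp.le)
        · unfold cutC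
          rw [if_neg hz', zero_dotProduct]
          exact mul_nonneg (by positivity) (hT0 z)
      refine b1.trans ?_
      rw [avg_mul']
      refine (mul_le_mul_of_nonneg_left hTs (by positivity)).trans (le_of_eq ?_)
      have hss' : √s * √s = s := Real.mul_self_sqrt hs.le
      rw [pow_succ]
      field_simp
      nlinarith [hss']
  · by_cases hz' : cls hq (T z) = i
    · refine (avg_mono' fun y _ => cutC_sq_le _ _ z y).trans ?_
      simp only [← norm_cv]
      have h := le_cls hq (T z)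
      rwa [hz'] at h
    · have e2 : (avg (iv K x.2.1) fun y =>
          cutC (fun z => cls hq (T z) = i) (fun z y => cv (u z y)) z y ⬝ᵥ
            cutC (fun z => cls hq (T z) = i) (fun z y => cv (u z y)) z y) = 0 := by
        unfold cutC PL.H315.avg
        simp [hz']
      rw [e2]
      positivity
  · refine le_trans (avg_mono' fun y _ => ?_) (hc.u_pot z hz w)
    unfold cutC
    split_ifs
    · exact le_rfl
    · rw [zero_dotProduct, zero_pow two_ne_zero]
      positivity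
  · exact hc.v_pot z hz w

end cls

/-- **The row classes of the alive sum**: `CE1r → CE1a`. -/
theorem ce1a_of_r (H : H305.CE1r) : H305.CE1a := by
  obtain ⟨gam, c1, d0, del, hg, hc1, hd0, hdel, H⟩ := H
  refine ⟨gam, c1, d0, hg, hc1, hd0, fun c hc hcc d hd hdd Kt e cP L hKt he hcP hL => ?_⟩
  obtain ⟨C, hC, H⟩ := H c hc hcc d hd hdd Kt e cP L hKt he hcP hL
  have hρ1 : (2 : ℝ) ^ (-del) < 1 :=
    Real.rpow_lt_one_of_one_lt_of_neg (by norm_num) (by linarith)
  have hρ0 : (0 : ℝ) ≤ (2 : ℝ) ^ (-del) := by positivity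
  refine ⟨C * (1 - (2 : ℝ) ^ (-del))⁻¹, mul_nonneg hC (inv_nonneg.2 (by linarith)), ?_⟩
  intro t ht ht1 n ez F1 F2 F3 h1 h3 h2 o ho K hK x V _ _ _ s g u v hs hCen
  have hq : 0 < √s := Real.sqrt_pos.2 hs
  set f : ℤ → ℕ := fun z => cls hq (avg (iv K x.2.1) fun y => ‖u z y‖ ^ 2) with hf
  set I : ℕ := (iv K x.1).sup f + 1 with hI
  have hfI : ∀ z ∈ iv K x.1, f z < I := fun z hz => Nat.lt_succ_of_le (le_sup hz)
  set A : ℕ → Pt → Prop :=
    fun k z => ¬ cst (t ^ (-d)) (nrt (fun p => g p.1 p.2) u v) K k z with hA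
  have e1 : cosA A o K x (comp (fun p => g p.1 p.2) u v) (fun k _ => F1 k) (fun k _ => F2 k)
      (fun k _ => F3 k) = cosA A o K x (fun y => ∑ i ∈ range I,
        H305.cmp g (cutC (fun z => f z = i) fun z y => cv (u z y)) (fun z y => cv (v z y)) y)
        (fun k _ => F1 k) (fun k _ => F2 k) (fun k _ => F3 k) := by
    refine cosA_congr fun y hy => ?_
    rw [comp_coord]
    refine cmp_cut g (fun z y => cv (u z y)) (fun z y => cv (v z y)) f I (hfI y.1 ?_)
    rw [cube3_eq] at hy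
    have h := mem_cb.1 hy
    rw [PL.H315.mem_iv]
    exact congrArg Prod.fst h
  rw [e1]
  refine (cosA_sum_le A o K x I _ _ _ _).trans ?_
  have key : ∀ i ∈ range I, cosA A o K x
      (H305.cmp g (cutC (fun z => f z = i) fun z y => cv (u z y)) (fun z y => cv (v z y)))
        (fun k _ => F1 k) (fun k _ => F2 k) (fun k _ => F3 k) ≤
      C * (t ^ (1 + gam) * s ^ (5 / 4 : ℝ) * √ez * 8 ^ K) * ((2 : ℝ) ^ (-del)) ^ i := by
    intro i _
    rw [← pow_rpow_neg]
    exact H t ht ht1 n ez F1 F2 F3 h1 h3 h2 o ho K hK x (H677.Lab V) s (2 ^ i)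
      (nrt (fun p => g p.1 p.2) u v) g _ _ hs (one_le_pow₀ (by norm_num))
      (cls_of_cen hs hCen hq i)
  refine (sum_le_sum key).trans ?_
  rw [← mul_sum]
  have hnn : 0 ≤ C * (t ^ (1 + gam) * s ^ (5 / 4 : ℝ) * √ez * 8 ^ K) := by positivity
  refine (mul_le_mul_of_nonneg_left (geo_le hρ0 hρ1 I) hnn).trans (le_of_eq ?_)
  ring

end

end Vale.Agent.P141.H198
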