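import Vale.Agent.P141.H305.TopM
import Vale.Agent.P141.H198.RowClsA
import Vale.Agent.P141.H419.WpBox

/-!
# P141, line (A), top: from one class with activity to data with an active set

`ce1M_of_q : H305.CE1q → H305.CE1M`.  One majorant for all classes:
`U.1 (z, y) ^ 2 = max (‖u z y‖ ^ 2) (actv z)`, `actv z = min 1 (t ^ (2 - a) (√s + 2 row z))` on the
active set.  The cubes are stopped with `U`, mass `(L + 3) s`; the label points are then sorted by
the size of the row of `u`.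
-/

namespace Vale.Agent.P141.H198

open Finset
open Vale.Agent.P141.PL (Pt loc cx mem_cb)
open Vale.Agent.P141.PL.H315 (iv cube3 avg Tri A2 card_cube3 atm)
open Vale.Agent.P141.PL.H317 (cube3_eq)
open Vale.Agent.P141.H48 (US ES cst Pos2 prE cG cG_nonneg Lam0 one_le_Lam0 genSt)
open Vale.Agent.P141.H136 (comp)
open Vale.Agent.P141.H572 (cosF)
open Vale.Agent.P141.H579 (cosA nrt gR rest_cosF comp_cosF)
open Vale.Agent.P141.H971 (Cen)
open Vale.Agent.P141.H677 (cv norm_cv cen_coord comp_coord)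
open Vale.Agent.P141.H922 (n2 n4 nN pw3 wP n2_nonneg n4_nonneg nN_nonneg wP_nonneg n2_e12 n2_e13
  n2_e23 nN_e12 nN_e13 nN_e23)
open Vale.Agent.P141.H498 (cEng cEng_nonneg pos2_asm)
open Vale.Agent.P141.H305 (prE_le nN_le_of)

noncomputable section

open scoped Classical

section gen

variable {ι : Type*} [Fintype ι]

/-- class data with larger majorants of `u` -/
theorem cls_maj {K : ℕ} {x : Pt} {s r P : ℝ} {U : Tri} {g : ℤ → ℤ → ℝ}
    {u v : ℤ → ℤ → ι → ℝ} (H : H305.Cls K x s r P U g u v) (w : ℤ × ℤ → ℝ)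
    (h1 : ∀ z ∈ iv K x.1, ∀ y ∈ iv K x.2.1, U.1 (z, y) ≤ w (z, y) ∧ w (z, y) ≤ 1)
    (h2 : A2 K w x.1 x.2.1 ≤ s) : H305.Cls K x s r P (w, U.2) g u v := by
  refine ⟨H.U_g, H.g_le, fun z hz y hy => ⟨(H.U_u z hz y hy).1.trans (h1 z hz y hy).1,
    (h1 z hz y hy).2⟩, H.U_v, fun z hz y hy => (H.u_le z hz y hy).trans ?_, H.v_le, h2, H.U_v2,
    H.U_g2, H.g_row, H.u_col, H.u_row, H.u_pot, H.v_pot⟩
  exact pow_le_pow_left₀ (H.U_u z hz y hy).1 (h1 z hz y hy).1 2

/-- cut of the other vector edge -/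
theorem cls_cut_v {K : ℕ} {x : Pt} {s r P : ℝ} {U : Tri} {g : ℤ → ℤ → ℝ}
    {u v : ℤ → ℤ → ι → ℝ} (H : H305.Cls K x s r P U g u v) (E : ℤ → Prop) :
    H305.Cls K x s r P U g u (cutC E v) := by
  refine ⟨H.U_g, H.g_le, H.U_u, H.U_v, H.u_le,
    fun z hz y hy => (cutC_sq_le E v z y).trans (H.v_le z hz y hy), H.U_u2, H.U_v2, H.U_g2,
    H.g_row, H.u_col, H.u_row, H.u_pot, fun z hz w => le_trans ?_ (H.v_pot z hz w)⟩
  refine avg_mono' fun y _ => ?_
  unfold cutC
  split_ifs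
  · exact le_rfl
  · rw [zero_dotProduct, zero_pow two_ne_zero]
    positivity

theorem cmp_cut2 (g : ℤ → ℤ → ℝ) (u v : ℤ → ℤ → ι → ℝ) (f : ℤ → ℕ) (I : ℕ) {y : Pt}
    (hy : f y.1 < I) :
    H305.cmp g u v y = ∑ i ∈ range I,
      H305.cmp g (cutC (fun z => f z = i) u) (cutC (fun z => f z = i) v) y := by
  rw [sum_eq_single_of_mem (f y.1) (mem_range.2 hy)]
  · unfold H305.cmp cutC
    rw [if_pos rfl, if_pos rfl]
  · intro i _ hi
    unfold H305.cmp cutC
    rw [if_neg (fun h => hi h.symm), zero_dotProduct, mul_zero]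

end gen

/-- the weight of a triple of height one and mass at most `s` -/
theorem wP_U {K : ℕ} {x : Pt} {s : ℝ} (hs : 0 < s) {U : Tri}
    (u1 : ∀ p ∈ iv K x.1 ×ˢ iv K x.2.1, |U.1 p| ≤ 1)
    (v1 : ∀ p ∈ iv K x.1 ×ˢ iv K x.2.2, |U.2.1 p| ≤ 1)
    (g1 : ∀ p ∈ iv K x.2.1 ×ˢ iv K x.2.2, |U.2.2 p| ≤ 1)
    (hu : A2 K U.1 x.1 x.2.1 ≤ s) (hv : A2 K U.2.1 x.1 x.2.2 ≤ s)
    (hg : A2 K U.2.2 x.2.1 x.2.2 ≤ s) :
    wP 1 (cube3 K x) U ≤ 3 * (8 ^ K * s ^ (5 / 4 : ℝ)) := by
  have u2 : n2 (iv K x.1 ×ˢ iv K x.2.1) U.1 ≤ √s := Real.sqrt_le_sqrt hu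
  have v2 : n2 (iv K x.1 ×ˢ iv K x.2.2) U.2.1 ≤ √s := Real.sqrt_le_sqrt hv
  have g2 : n2 (iv K x.2.1 ×ˢ iv K x.2.2) U.2.2 ≤ √s := Real.sqrt_le_sqrt hg
  have un := nN_le_of hs.le u1 u2
  have vn := nN_le_of hs.le v1 v2
  have gn := nN_le_of hs.le g1 g2
  have key : s ^ (3 / 8 : ℝ) * s ^ (3 / 8 : ℝ) * √s = s ^ (5 / 4 : ℝ) := by
    rw [Real.sqrt_eq_rpow, ← Real.rpow_add hs, ← Real.rpow_add hs]
    norm_num
  have h3 : ∀ a b c : ℝ, 0 ≤ a → 0 ≤ b → 0 ≤ c → a ≤ s ^ (3 / 8 : ℝ) → b ≤ s ^ (3 / 8 : ℝ) →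
      c ≤ √s → a * b * c ≤ s ^ (5 / 4 : ℝ) := by
    intro a b c ha hb hc h1 h2 h3
    rw [← key]
    exact mul_le_mul (mul_le_mul h1 h2 hb (by positivity)) h3 hc (by positivity)
  unfold H922.wP H922.pw3
  rw [card_cube3, nN_e12, nN_e13, nN_e23, n2_e12, n2_e13, n2_e23]
  have k1 := h3 _ _ _ (nN_nonneg _ _) (nN_nonneg _ _) (n2_nonneg _ _) un vn g2
  have k2 := h3 _ _ _ (nN_nonneg _ _) (nN_nonneg _ _) (n2_nonneg _ _) un gn v2
  have k3 := h3 _ _ _ (nN_nonneg _ _) (nN_nonneg _ _) (n2_nonneg _ _) vn gn u2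
  push_cast
  calc 1 * (8 : ℝ) ^ K * _ ≤ 1 * (8 : ℝ) ^ K * (s ^ (5 / 4 : ℝ) + s ^ (5 / 4 : ℝ) +
        s ^ (5 / 4 : ℝ)) := mul_le_mul_of_nonneg_left (add_le_add (add_le_add k1 k2) k3)
          (by positivity)
    _ = _ := by ring

/-- the activity of the label points -/
def actv (X : Finset ℤ) (t a s : ℝ) (T : ℤ → ℝ) (z : ℤ) : ℝ :=
  if z ∈ X then min 1 (t ^ (2 - a) * (√s + 2 * T z)) else 0

theorem actv_nonneg {X : Finset ℤ} {t a s : ℝ} (ht : 0 < t) {T : ℤ → ℝ} (hT : ∀ z, 0 ≤ T z)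
    (z : ℤ) : 0 ≤ actv X t a s T z := by
  unfold actv
  split_ifs
  · have h1 := hT z
    have h2 : 0 ≤ t ^ (2 - a) := Real.rpow_nonneg ht.le _
    exact le_min zero_le_one (by positivity)
  · exact le_rfl

theorem actv_le_one {X : Finset ℤ} {t a s : ℝ} {T : ℤ → ℝ} (z : ℤ) :
    actv X t a s T z ≤ 1 := by
  unfold actv
  split_ifs
  · exact min_le_left _ _
  · exact zero_le_one

theorem avg_add'' {X : Type*} (Q : Finset X) (f g : X → ℝ) :
    (avg Q fun x => f x + g x) = avg Q f + avg Q g := by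
  unfold Vale.Agent.P141.PL.H315.avg
  rw [sum_add_distrib, mul_add]

theorem avg_const' {X : Type*} {Q : Finset X} (hQ : Q.Nonempty) (a : ℝ) :
    (avg Q fun _ => a) = a := by
  unfold Vale.Agent.P141.PL.H315.avg
  have h : ((Q.card : ℕ) : ℝ) ≠ 0 := by
    have := card_pos.2 hQ
    positivity
  rw [sum_const, nsmul_eq_mul, ← mul_assoc, inv_mul_cancel₀ h, one_mul]

/-- the mass of the activity -/
theorem avg_actv_le {Q : Finset ℤ} {X : Finset ℤ} {t a s L : ℝ} (ht : 0 < t) (ht1 : t ≤ 1)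
    (ha1 : a ≤ 1) (hs : 0 < s) {T : ℤ → ℝ} (hT : ∀ z, 0 ≤ T z)
    (hTs : avg Q T ≤ s)
    (hX : (avg Q fun z => if z ∈ X then (1 : ℝ) else 0) ≤ L * (t ^ (a - 2) * √s)) :
    avg Q (actv X t a s T) ≤ (L + 2) * s := by
  have h2 : 0 < t ^ (2 - a) := Real.rpow_pos_of_pos ht _
  have h21 : t ^ (2 - a) ≤ 1 := Real.rpow_le_one ht.le ht1 (by linarith)
  have b1 : avg Q (actv X t a s T) ≤ avg Q fun z =>
      (t ^ (2 - a) * √s) * (if z ∈ X then (1 : ℝ) else 0) + 2 * T z := by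
    refine avg_mono' fun z _ => ?_
    unfold actv
    have h1 := hT z
    split_ifs
    · refine (min_le_right _ _).trans ?_
      have h3 : t ^ (2 - a) * (2 * T z) ≤ 1 * (2 * T z) :=
        mul_le_mul_of_nonneg_right h21 (by linarith)
      nlinarith [h3]
    · rw [mul_zero, zero_add]
      linarith
  refine b1.trans ?_
  rw [avg_add'', avg_mul', avg_mul']
  have h4 : t ^ (2 - a) * √s * (L * (t ^ (a - 2) * √s)) = L * s := by
    have e : t ^ (2 - a) * t ^ (a - 2) = 1 := by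
      rw [← Real.rpow_add ht]
      norm_num
    have e2 : √s * √s = s := Real.mul_self_sqrt hs.le
    calc t ^ (2 - a) * √s * (L * (t ^ (a - 2) * √s))
        = L * ((t ^ (2 - a) * t ^ (a - 2)) * (√s * √s)) := by ring
      _ = L * s := by rw [e, e2, one_mul]
  have h5 := mul_le_mul_of_nonneg_left hX (show 0 ≤ t ^ (2 - a) * √s by positivity)
  rw [h4] at h5
  linarith

section cen

variable {V : Type*} [NormedAddCommGroup V] [InnerProductSpace ℝ V]

/-- the majorants with activity -/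
def majU (g : ℤ → ℤ → ℝ) (u v : ℤ → ℤ → V) (κ : ℤ → ℝ) : Tri :=
  (fun p => √(max (‖u p.1 p.2‖ ^ 2) (κ p.1)), (nrt (fun p => g p.1 p.2) u v).2)

omit [InnerProductSpace ℝ V] in
theorem majU_sq (g : ℤ → ℤ → ℝ) (u v : ℤ → ℤ → V) (κ : ℤ → ℝ) (p : ℤ × ℤ) :
    (majU g u v κ).1 p ^ 2 = max (‖u p.1 p.2‖ ^ 2) (κ p.1) :=
  Real.sq_sqrt (le_max_of_le_left (sq_nonneg _))

omit [InnerProductSpace ℝ V] in
theorem le_majU (g : ℤ → ℤ → ℝ) (u v : ℤ → ℤ → V) (κ : ℤ → ℝ) (p : ℤ × ℤ) :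
    ‖u p.1 p.2‖ ≤ (majU g u v κ).1 p := by
  refine Real.le_sqrt_of_sq_le (le_max_left _ _)

/-- centre data of larger mass -/
theorem cen_mono {A B C : Finset ℤ} {s s' P P' : ℝ} {g : ℤ → ℤ → ℝ} {u v : ℤ → ℤ → V}
    (H : Cen A B C 1 √s 1 P g u v) (hs : s ≤ s') (hP : P ≤ P') :
    Cen A B C 1 √s' 1 P' g u v := by
  have h := Real.sqrt_le_sqrt hs
  have h2 : √s ^ 2 ≤ √s' ^ 2 := pow_le_pow_left₀ (Real.sqrt_nonneg _) h 2
  exact ⟨H.a_le, H.a_n2.trans h, fun x hx => (H.a_row x hx).trans (by linarith), H.u_le, H.v_le,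
    H.u_en.trans (by linarith), H.v_en.trans (by linarith),
    fun x hx => (H.u_col x hx).trans (by linarith),
    fun z hz w => (H.u_pot z hz w).trans (mul_le_mul_of_nonneg_right hP (sq_nonneg _)),
    fun z hz w => (H.v_pot z hz w).trans (mul_le_mul_of_nonneg_right hP (sq_nonneg _))⟩

end cen

theorem aux_le {L s : ℝ} (hL : 1 ≤ L) (hs : 0 < s) : s ≤ (L + 3) * s := by nlinarith

theorem aux_sq {L : ℝ} (hL : 1 ≤ L) : L + 3 ≤ (L + 3) ^ 2 := by nlinarith

theorem aux_row0 {q q1 L T : ℝ} (h : q ≤ (L + 3) * q1) (hT : 0 ≤ T) (hL : 1 ≤ L) :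
    q ≤ (L + 3) * (q1 + 2 * T) := by nlinarith

theorem aux_row1 {q p q1 L T : ℝ} (h8 : p * q < T) (h9 : 0 ≤ q1) (hL : 1 ≤ L) (hT : 0 ≤ T) :
    q * (p * 2) ≤ (L + 3) * (q1 + 2 * T) := by nlinarith

theorem aux_r {p q T : ℝ} (h8 : p * q < T) (h9 : T ≤ 1) : p * 2 * q ≤ 2 := by nlinarith

theorem aux_norm {W : Type*} [NormedAddCommGroup W] {w : W} (h : ‖w‖ ^ 2 ≤ 1) : ‖w‖ ≤ 1 := by
  nlinarith [norm_nonneg w]

theorem cutC_zero {κ : Type*} {E : ℤ → Prop} {u : ℤ → ℤ → κ → ℝ} {z y : ℤ}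
    (h : E z → u z y = 0) : cutC E u z y = 0 := by
  unfold cutC
  split_ifs with h'
  · exact h h'
  · rfl

set_option maxHeartbeats 1600000 in
/-- **From one class with activity to data with an active set.** -/
theorem ce1M_of_q (H : H305.CE1q) : H305.CE1M := by
  intro a ha ha1
  obtain ⟨gam, c1, d0, del, hgam, hc1, hd0, hdel, H⟩ := H a ha ha1
  set d : ℝ := min d0 1 with hd
  have hdp : 0 < d := lt_min hd0 one_pos
  have hd1 : d ≤ 1 := min_le_right _ _
  set ε : ℝ := d / 1920 with hεd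
  have hε : 0 < ε := by positivity
  have hε' : ε ≤ 1 / 4 := by rw [hεd]; linarith
  refine ⟨min gam (d / 480), min c1 (d / 960), lt_min hgam (by positivity),
    lt_min hc1 (by positivity), fun c hc hcc Kt e cP L hK he hcP hL => ?_⟩
  obtain ⟨C, hC, H⟩ := H c hc (hcc.trans (min_le_left _ _)) d hdp (min_le_left _ _) Kt e cP (L + 3)
    hK he hcP (by linarith)
  have hρ1 : (2 : ℝ) ^ (-del) < 1 :=
    Real.rpow_lt_one_of_one_lt_of_neg (by norm_num) (by linarith)
  have hρ0 : (0 : ℝ) ≤ (2 : ℝ) ^ (-del) := by positivity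
  set A : ℝ := 2 * cG Lam0 cP 240000 cEng ε with hA
  have hA0 : 0 ≤ A := by
    have := cG_nonneg (Λ := Lam0) (cP := cP) (K0 := 240000) (C := cEng) hcP (by norm_num)
      cEng_nonneg hε
    positivity
  have hPos : Pos2 A ε cP := pos2_asm one_le_Lam0 genSt hε hε' hcP
  set B : ℝ := (Kt * Kt) ^ (1 / 2 - ε) * (e * e) ^ (1 / 4 + ε / 2) with hB
  have hB0 : 0 ≤ B := by
    have h3 : 0 ≤ (Kt * Kt) ^ (1 / 2 - ε) := by positivity
    have h4 : 0 ≤ (e * e) ^ (1 / 4 + ε / 2) := Real.rpow_nonneg (by positivity) _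
    positivity
  set Λ5 : ℝ := (L + 3) ^ (5 / 4 : ℝ) with hΛ5
  have hΛ0 : 0 ≤ Λ5 := Real.rpow_nonneg (by linarith) _
  refine ⟨C * (1 - (2 : ℝ) ^ (-del))⁻¹ * Λ5 + 6 * (A * B) * 1153 ^ 3 * 3 * Λ5,
    add_nonneg (mul_nonneg (mul_nonneg hC (inv_nonneg.2 (by linarith))) hΛ0) (by positivity), ?_⟩
  intro t ht ht1 n ez F1 F2 F3 h1 h3 h2 o ho K hKn x V _ _ _ s g u v X hs hcen hXu hXv hX
  have hez : 0 ≤ ez := h2.1
  have htg : 0 < t ^ (1 + gam) := Real.rpow_pos_of_pos ht _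
  -- the larger mass
  set s' : ℝ := (L + 3) * s with hs'
  have hs'0 : 0 < s' := by positivity
  have hss' : s ≤ s' := aux_le hL hs
  have hs5 : s' ^ (5 / 4 : ℝ) = Λ5 * s ^ (5 / 4 : ℝ) := Real.mul_rpow (by linarith) hs.le
  have hq : 0 < √s' := Real.sqrt_pos.2 hs'0
  have hq1 : √s' ≤ (L + 3) * √s := by
    rw [hs', Real.sqrt_mul (by linarith)]
    refine mul_le_mul_of_nonneg_right ?_ (Real.sqrt_nonneg _)
    exact Real.sqrt_le_iff.2 ⟨by linarith, aux_sq hL⟩
  have ht2c : 0 < t ^ (2 - c) := Real.rpow_pos_of_pos ht _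
  have hP : L * t ^ (2 - c) * √s ≤ (L + 3) * t ^ (2 - c) * √s' := by
    have h5 : √s ≤ √s' := Real.sqrt_le_sqrt hss'
    have h6 : L * t ^ (2 - c) ≤ (L + 3) * t ^ (2 - c) :=
      mul_le_mul_of_nonneg_right (by linarith) ht2c.le
    exact mul_le_mul h6 h5 (Real.sqrt_nonneg _) (by positivity)
  have hcen' := cen_mono hcen hss' hP
  -- rows and classes
  set T : ℤ → ℝ := fun z => avg (iv K x.2.1) fun y => ‖u z y‖ ^ 2 with hT
  have hT0 : ∀ z, 0 ≤ T z := fun z => avg_nonneg' fun y _ => by positivity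
  have hTs : avg (iv K x.1) T ≤ s := by
    have h := hcen.u_en
    rwa [one_mul, Real.sq_sqrt hs.le] at h
  have hne : ∀ y, (iv K y).Nonempty := fun y => card_pos.1 (by
    have := PL.H315.card_pos_iv K y
    exact_mod_cast this)
  have hT1 : ∀ z ∈ iv K x.1, T z ≤ 1 := by
    intro z hz
    have h5 : T z ≤ avg (iv K x.2.1) fun _ => (1 : ℝ) := avg_mono' fun y hy => by
      have h := hcen.u_le z hz y hy
      rwa [one_pow, one_mul] at h
    rwa [avg_const' (hne _)] at h5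
  set f : ℤ → ℕ := fun z => cls hq (T z) with hf
  set I : ℕ := (iv K x.1).sup f + 1 with hI
  have hfI : ∀ z ∈ iv K x.1, f z < I := fun z hz => Nat.lt_succ_of_le (le_sup hz)
  -- the majorants
  set κ : ℤ → ℝ := actv X t a s T with hκ
  set U : Tri := majU g u v κ with hU
  have hκ0 : ∀ z, 0 ≤ κ z := fun z => actv_nonneg ht hT0 z
  have hUsq : ∀ p, U.1 p ^ 2 = max (‖u p.1 p.2‖ ^ 2) (κ p.1) := fun p => majU_sq g u v κ p
  have hU0 : ∀ p, 0 ≤ U.1 p := fun p => Real.sqrt_nonneg _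
  have hU1 : ∀ z ∈ iv K x.1, ∀ y ∈ iv K x.2.1, U.1 (z, y) ≤ 1 := by
    intro z hz y hy
    refine Real.sqrt_le_one.2 (max_le ?_ (actv_le_one z))
    have h := hcen.u_le z hz y hy
    rwa [one_pow, one_mul] at h
  have hUm : A2 K U.1 x.1 x.2.1 ≤ s' := by
    unfold PL.H315.A2
    rw [H550.avg_prod]
    have h5 : (avg (iv K x.1) fun z => avg (iv K x.2.1) fun y => U.1 (z, y) ^ 2) ≤
        avg (iv K x.1) fun z => T z + κ z := by
      refine avg_mono' fun z _ => ?_
      have h6 : (avg (iv K x.2.1) fun y => U.1 (z, y) ^ 2) ≤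
          avg (iv K x.2.1) fun y => ‖u z y‖ ^ 2 + κ z := by
        refine avg_mono' fun y _ => ?_
        rw [hUsq]
        exact max_le (le_add_of_nonneg_right (hκ0 z)) (le_add_of_nonneg_left (sq_nonneg _))
      refine h6.trans (le_of_eq ?_)
      rw [avg_add'', avg_const' (hne _)]
    refine h5.trans ?_
    rw [avg_add'']
    have h7 := avg_actv_le ht ht1 ha1 hs hT0 hTs hX
    rw [hs']
    linarith
  have hU2 : U.2 = (nrt (fun p => g p.1 p.2) u v).2 := rfl
  -- the stopped cubes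
  set l : ℝ := t ^ (-d / 4) with hl
  have hl1 : 1 ≤ l := Real.one_le_rpow_of_pos_of_le_one_of_nonpos ht ht1 (by linarith)
  have hl4 : l ^ 4 = t ^ (-d) := by
    rw [hl, ← Real.rpow_natCast (t ^ (-d / 4)) 4, ← Real.rpow_mul ht.le]
    congr 1
    push_cast
    ring
  set P : ℝ := A * prE ε (Kt * t ^ (1 - c)) (Kt * t ^ (1 - c)) e e ez with hPd
  have hprE := prE_le (Kt := Kt) (e := e) (ez := ez) hK ht ht1 hc hε (by linarith)
  have hprE0 : 0 ≤ prE ε (Kt * t ^ (1 - c)) (Kt * t ^ (1 - c)) e e ez := by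
    unfold prE
    have h3 : 0 ≤ (Kt * t ^ (1 - c) * (Kt * t ^ (1 - c))) ^ (1 / 2 - ε) := by positivity
    have h4 : 0 ≤ (e * e) ^ (1 / 4 + ε / 2) := Real.rpow_nonneg (by positivity) _
    positivity
  have hP0 : 0 ≤ P := mul_nonneg hA0 hprE0
  have rest := rest_cosF hl1 (P := 6 * P) (by positivity) U o K x
    (comp (fun p => g p.1 p.2) u v) (fun k _ => F1 k) (fun k _ => F2 k) (fun k _ => F3 k)
    fun K' hK' x' _ => by
      refine (comp_cosF hP0 o K' x' (fun p => g p.1 p.2) u v (fun k _ => F1 k) (fun k _ => F2 k)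
        (fun k _ => F3 k) fun b =>
          hPos n _ _ e ez e F1 F2 F3 h1 h3 h2 o ho K' (by omega) x' b).trans ?_
      refine mul_le_mul_of_nonneg_left (H419.wP_mono zero_le_one (fun p _ => ?_) (fun p _ => le_rfl)
        fun p _ => le_rfl) (by positivity)
      show |‖u p.1 p.2.1‖| ≤ |U.1 (p.1, p.2.1)|
      rw [abs_norm, abs_of_nonneg (hU0 _)]
      exact le_majU g u v κ (p.1, p.2.1)
  rw [hl4] at rest
  refine rest.trans ?_
  have hw : wP 1 (cube3 K x) U ≤ 3 * (8 ^ K * s' ^ (5 / 4 : ℝ)) := by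
    refine wP_U hs'0 (fun p hp => ?_) (fun p hp => ?_) (fun p hp => ?_) hUm ?_ ?_
    · rw [mem_product] at hp
      rw [abs_of_nonneg (hU0 _)]
      exact hU1 p.1 hp.1 p.2 hp.2
    · rw [mem_product] at hp
      have h := hcen.v_le p.1 hp.1 p.2 hp.2
      rw [one_pow, one_mul] at h
      show |‖v p.1 p.2‖| ≤ 1
      rw [abs_norm]
      exact aux_norm h
    · rw [mem_product] at hp
      exact hcen.a_le p.1 hp.1 p.2 hp.2
    · have h := hcen.v_en
      rw [one_mul, Real.sq_sqrt hs.le] at h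
      show A2 K (fun p => ‖v p.1 p.2‖) x.1 x.2.2 ≤ s'
      unfold PL.H315.A2
      rw [H550.avg_prod]
      exact h.trans hss'
    · have h := pow_le_pow_left₀ (n2_nonneg _ _) hcen.a_n2 2
      rw [H922.n2_sq, Real.sq_sqrt hs.le] at h
      show A2 K (fun p => g p.1 p.2) x.2.1 x.2.2 ≤ s'
      unfold PL.H315.A2
      exact h.trans hss'
  have hw0 : 0 ≤ wP 1 (cube3 K x) U := wP_nonneg zero_le_one _ _
  -- the classes
  have main : cosA (fun k z => ¬ cst (t ^ (-d)) U K k z) o K x (comp (fun p => g p.1 p.2) u v)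
      (fun k _ => F1 k) (fun k _ => F2 k) (fun k _ => F3 k) ≤
      C * (t ^ (1 + gam) * s' ^ (5 / 4 : ℝ) * √ez * 8 ^ K) * (1 - (2 : ℝ) ^ (-del))⁻¹ := by
    set Al : ℕ → Pt → Prop := fun k z => ¬ cst (t ^ (-d)) U K k z with hAl
    have e1 : cosA Al o K x (comp (fun p => g p.1 p.2) u v) (fun k _ => F1 k) (fun k _ => F2 k)
        (fun k _ => F3 k) = cosA Al o K x (fun y => ∑ i ∈ range I,
          H305.cmp g (cutC (fun z => f z = i) fun z y => cv (u z y))
            (cutC (fun z => f z = i) fun z y => cv (v z y)) y)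
          (fun k _ => F1 k) (fun k _ => F2 k) (fun k _ => F3 k) := by
      refine cosA_congr fun y hy => ?_
      rw [comp_coord]
      refine cmp_cut2 g (fun z y => cv (u z y)) (fun z y => cv (v z y)) f I (hfI y.1 ?_)
      rw [cube3_eq] at hy
      have h := mem_cb.1 hy
      rw [PL.H315.mem_iv]
      exact congrArg Prod.fst h
    rw [e1]
    refine (cosA_sum_le Al o K x I _ _ _ _).trans ?_
    have hcv0 : ∀ w : V, w = 0 → cv w = 0 := by
      intro w hw0
      have e := norm_cv w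
      rw [hw0, norm_zero, zero_pow two_ne_zero] at e
      rw [hw0]
      exact dotProduct_self_eq_zero.1 e.symm
    have key : ∀ i ∈ range I, cosA Al o K x
        (H305.cmp g (cutC (fun z => f z = i) fun z y => cv (u z y))
          (cutC (fun z => f z = i) fun z y => cv (v z y)))
          (fun k _ => F1 k) (fun k _ => F2 k) (fun k _ => F3 k) ≤
        C * (t ^ (1 + gam) * s' ^ (5 / 4 : ℝ) * √ez * 8 ^ K) * ((2 : ℝ) ^ (-del)) ^ i := by
      intro i _
      by_cases hemp : ∃ z ∈ iv K x.1, f z = i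
      · rw [← pow_rpow_neg]
        have hcls := cls_cut_v (cls_maj (cls_of_cen hs'0 hcen' hq i) U.1
          (fun z hz y hy => ⟨le_majU g u v κ (z, y), hU1 z hz y hy⟩) hUm) (fun z => f z = i)
        refine H t ht ht1 n ez F1 F2 F3 h1 h3 h2 o ho K hKn x (H677.Lab V) s' (2 ^ i)
          (U.1, (nrt (fun p => g p.1 p.2) u v).2) g _ _ hs'0 (one_le_pow₀ (by norm_num)) ?_
        refine ⟨hcls, fun z hz => ?_, ?_⟩
        · by_cases hzX : z ∈ X ∧ f z = i
          · left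
            intro y hy
            show H305.kapM (L + 3) t a s' (2 ^ i) ≤ U.1 (z, y) ^ 2
            rw [hUsq]
            refine le_trans ?_ (le_max_right _ _)
            show _ ≤ actv X t a s T z
            unfold actv H305.kapM
            rw [if_pos hzX.1]
            have hL3 : 0 < L + 3 := by linarith
            have h2a : 0 < t ^ (2 - a) := Real.rpow_pos_of_pos ht _
            have hTz := hT0 z
            have hrow : √s' * 2 ^ i ≤ (L + 3) * (√s + 2 * T z) := by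
              rcases i with _ | j
              · rw [pow_zero, mul_one]
                exact aux_row0 hq1 hTz hL
              · have h8 := lt_of_cls hq hzX.2
                rw [pow_succ]
                exact aux_row1 h8 (Real.sqrt_nonneg _) hL hTz
            refine le_min ?_ ?_
            · have h10 : (L + 3)⁻¹ ≤ 1 := inv_le_one_of_one_le₀ (by linarith)
              have h11 : min 1 (t ^ (2 - a) * √s' * 2 ^ i) ≤ 1 := min_le_left _ _
              have h12 : 0 ≤ min 1 (t ^ (2 - a) * √s' * 2 ^ i) :=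
                le_min zero_le_one (by positivity)
              calc (L + 3)⁻¹ * min 1 (t ^ (2 - a) * √s' * 2 ^ i) ≤ 1 * 1 :=
                    mul_le_mul h10 h11 h12 zero_le_one
                _ = 1 := one_mul 1
            · calc (L + 3)⁻¹ * min 1 (t ^ (2 - a) * √s' * 2 ^ i)
                  ≤ (L + 3)⁻¹ * (t ^ (2 - a) * √s' * 2 ^ i) :=
                    mul_le_mul_of_nonneg_left (min_le_right _ _) (by positivity)
                _ = (L + 3)⁻¹ * t ^ (2 - a) * (√s' * 2 ^ i) := by ring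
                _ ≤ (L + 3)⁻¹ * t ^ (2 - a) * ((L + 3) * (√s + 2 * T z)) :=
                    mul_le_mul_of_nonneg_left hrow (by positivity)
                _ = t ^ (2 - a) * (√s + 2 * T z) := by
                    field_simp
          · right
            refine ⟨fun y => ?_, fun y => ?_⟩
            · exact cutC_zero fun h => hcv0 _ (hXu z (fun h' => hzX ⟨h', h⟩) y)
            · exact cutC_zero fun h => hcv0 _ (hXv z (fun h' => hzX ⟨h', h⟩) y)
        · rcases i with _ | j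
          · left
            rw [pow_zero]
          · right
            obtain ⟨z, hz, hzf⟩ := hemp
            have h8 := lt_of_cls hq hzf
            have h9 := hT1 z hz
            rw [pow_succ]
            exact aux_r h8 h9
      · have h0 : cosA Al o K x
            (H305.cmp g (cutC (fun z => f z = i) fun z y => cv (u z y))
              (cutC (fun z => f z = i) fun z y => cv (v z y)))
            (fun k _ => F1 k) (fun k _ => F2 k) (fun k _ => F3 k) ≤ 0 := by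
          have e2 : cosA Al o K x
              (H305.cmp g (cutC (fun z => f z = i) fun z y => cv (u z y))
                (cutC (fun z => f z = i) fun z y => cv (v z y)))
              (fun k _ => F1 k) (fun k _ => F2 k) (fun k _ => F3 k) =
              cosA Al o K x (fun y => ∑ i ∈ range 0, (fun _ : ℕ => fun _ : Pt => (0 : ℝ)) i y)
              (fun k _ => F1 k) (fun k _ => F2 k) (fun k _ => F3 k) := by
            refine cosA_congr fun y hy => ?_
            rw [cube3_eq] at hy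
            have h := mem_cb.1 hy
            have hy1 : y.1 ∈ iv K x.1 := by
              rw [PL.H315.mem_iv]
              exact congrArg Prod.fst h
            rw [sum_range_zero]
            unfold H305.cmp cutC
            rw [if_neg (fun h' => hemp ⟨y.1, hy1, h'⟩), zero_dotProduct, mul_zero]
          rw [e2]
          refine (cosA_sum_le Al o K x 0 _ _ _ _).trans ?_
          rw [sum_range_zero]
        refine h0.trans ?_
        have : 0 ≤ s' ^ (5 / 4 : ℝ) := Real.rpow_nonneg hs'0.le _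
        positivity
    refine (sum_le_sum key).trans ?_
    rw [← mul_sum]
    have hnn : 0 ≤ C * (t ^ (1 + gam) * s' ^ (5 / 4 : ℝ) * √ez * 8 ^ K) := by
      have : 0 ≤ s' ^ (5 / 4 : ℝ) := Real.rpow_nonneg hs'0.le _
      positivity
    exact mul_le_mul_of_nonneg_left (geo_le hρ0 hρ1 I) hnn
  -- the numbers
  have hg : gR l = 1153 ^ 3 * t ^ (d / 240) := by
    unfold gR
    rw [hl, ← Real.rpow_mul ht.le]
    congr 2
    ring
  have e1 : t ^ (1 + gam) ≤ t ^ (1 + min gam (d / 480)) :=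
    Real.rpow_le_rpow_of_exponent_ge ht ht1 (by linarith [min_le_left gam (d / 480)])
  have e2 : t ^ (1 - c - 2 * ε) * t ^ (d / 240) ≤ t ^ (1 + min gam (d / 480)) := by
    rw [← Real.rpow_add ht]
    refine Real.rpow_le_rpow_of_exponent_ge ht ht1 ?_
    have h5 := min_le_right gam (d / 480)
    have h6 := hcc.trans (min_le_right c1 (d / 960))
    rw [hεd]
    linarith
  have e3 : P * gR l ≤ (A * B) * 1153 ^ 3 * (t ^ (1 + min gam (d / 480)) * √ez) := by
    rw [hg, hPd]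
    calc A * prE ε (Kt * t ^ (1 - c)) (Kt * t ^ (1 - c)) e e ez * (1153 ^ 3 * t ^ (d / 240))
        ≤ A * (B * (t ^ (1 - c - 2 * ε) * √ez)) * (1153 ^ 3 * t ^ (d / 240)) := by
          gcongr
      _ = (A * B) * 1153 ^ 3 * (t ^ (1 - c - 2 * ε) * t ^ (d / 240)) * √ez := by ring
      _ ≤ (A * B) * 1153 ^ 3 * t ^ (1 + min gam (d / 480)) * √ez := by gcongr
      _ = _ := by ring
  have e4 : 6 * P * gR l * wP 1 (cube3 K x) U ≤
      6 * ((A * B) * 1153 ^ 3 * (t ^ (1 + min gam (d / 480)) * √ez)) *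
        (3 * (8 ^ K * s' ^ (5 / 4 : ℝ))) := by
    have h5 : 0 ≤ P * gR l := mul_nonneg hP0 (by rw [hg]; positivity)
    calc 6 * P * gR l * wP 1 (cube3 K x) U
        = 6 * (P * gR l) * wP 1 (cube3 K x) U := by ring
      _ ≤ _ := by
        refine mul_le_mul (mul_le_mul_of_nonneg_left e3 (by norm_num)) hw hw0 (by positivity)
  have hs50 : 0 ≤ s ^ (5 / 4 : ℝ) := Real.rpow_nonneg hs.le _
  have hinv : 0 ≤ (1 - (2 : ℝ) ^ (-del))⁻¹ := inv_nonneg.2 (by linarith)
  have e5 : C * (t ^ (1 + gam) * s' ^ (5 / 4 : ℝ) * √ez * 8 ^ K) * (1 - (2 : ℝ) ^ (-del))⁻¹ ≤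
      C * (t ^ (1 + min gam (d / 480)) * s' ^ (5 / 4 : ℝ) * √ez * 8 ^ K) *
        (1 - (2 : ℝ) ^ (-del))⁻¹ := by
    have : 0 ≤ s' ^ (5 / 4 : ℝ) := Real.rpow_nonneg hs'0.le _
    gcongr
  calc _ ≤ C * (t ^ (1 + min gam (d / 480)) * s' ^ (5 / 4 : ℝ) * √ez * 8 ^ K) *
        (1 - (2 : ℝ) ^ (-del))⁻¹ +
        6 * ((A * B) * 1153 ^ 3 * (t ^ (1 + min gam (d / 480)) * √ez)) *
          (3 * (8 ^ K * s' ^ (5 / 4 : ℝ))) := add_le_add (main.trans e5) e4
    _ = _ := by
      rw [hs5]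
      ring

end

end Vale.Agent.P141.H198
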