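import Vale.Agent.P141.H305.TopDefs

/-!
# P141, line (A), top: statements with an active set at the label vertex

`X` is a finite set of label points outside of which both vector edges vanish.

* `CE1mX`: `CE1n` with an active set of density at most `L t ^ (a - 2) √s`;
* `CE1aX`: the same for the nodes which are not stopped;
* `CE1rX`: one row class, active set of density at most `L t ^ (a - 2) √s / r`.
-/

namespace Vale.Agent.P141.H198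

open Finset
open Vale.Agent.P141.PL (Pt)
open Vale.Agent.P141.PL.H315 (iv Tri A2 avg)
open Vale.Agent.P141.H48 (US ES cst)
open Vale.Agent.P141.H572 (cosF)
open Vale.Agent.P141.H579 (cosA nrt)
open Vale.Agent.P141.H136 (comp)
open Vale.Agent.P141.H971 (Cen)
open Vale.Agent.P141.H305 (Cls cmp)

noncomputable section

open scoped Classical

/-- the indicator of a set of label points -/
def ind (X : Finset ℤ) (z : ℤ) : ℝ := if z ∈ X then 1 else 0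

/-- **CE1, normalised data with an active set.** -/
def CE1mX : Prop :=
  ∃ a gam c1 : ℝ, 0 < a ∧ a ≤ 1 / 4000 ∧ 0 < gam ∧ 0 < c1 ∧ ∀ c : ℝ, 0 ≤ c → c ≤ c1 →
  ∀ Kt e cP L : ℝ, 0 < Kt → 1 ≤ e → 0 ≤ cP → 0 ≤ L → ∃ C : ℝ, 0 ≤ C ∧
  ∀ t : ℝ, 0 < t → t ≤ 1 → ∀ (n : ℕ) (ez : ℝ) (F1 F2 F3 : ℕ → Pt → ℝ),
    US n (Kt * t ^ (1 - c)) e cP F1 → US n (Kt * t ^ (1 - c)) e cP F3 → ES n ez cP F2 →
  ∀ o : ℤ, o = 1 ∨ o = -1 → ∀ K ≤ n, ∀ (x : Pt)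
    (V : Type) [NormedAddCommGroup V] [InnerProductSpace ℝ V] [FiniteDimensional ℝ V]
    (s : ℝ) (g : ℤ → ℤ → ℝ) (u v : ℤ → ℤ → V) (X : Finset ℤ), 0 < s →
    Cen (iv K x.2.1) (iv K x.2.2) (iv K x.1) 1 √s 1 (L * t ^ (2 - c) * √s) g u v →
    (∀ z ∉ X, ∀ y, u z y = 0) → (∀ z ∉ X, ∀ y, v z y = 0) →
    (avg (iv K x.1) (ind X)) * (t ^ 2 * √s) ≤ L * (t ^ a * s) →
    cosF o K x (comp (fun p => g p.1 p.2) u v) (fun k _ => F1 k) (fun k _ => F2 k)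
        (fun k _ => F3 k) ≤
      C * (t ^ (1 + gam) * s ^ (5 / 4 : ℝ) * √ez * 8 ^ K)

/-- **CE1, normalised data with an active set, the nodes which are not stopped.** -/
def CE1aX : Prop :=
  ∃ a gam c1 d0 : ℝ, 0 < a ∧ a ≤ 1 / 4000 ∧ 0 < gam ∧ 0 < c1 ∧ 0 < d0 ∧
  ∀ c : ℝ, 0 ≤ c → c ≤ c1 → ∀ d : ℝ, 0 < d → d ≤ d0 →
  ∀ Kt e cP L : ℝ, 0 < Kt → 1 ≤ e → 0 ≤ cP → 0 ≤ L → ∃ C : ℝ, 0 ≤ C ∧
  ∀ t : ℝ, 0 < t → t ≤ 1 → ∀ (n : ℕ) (ez : ℝ) (F1 F2 F3 : ℕ → Pt → ℝ),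
    US n (Kt * t ^ (1 - c)) e cP F1 → US n (Kt * t ^ (1 - c)) e cP F3 → ES n ez cP F2 →
  ∀ o : ℤ, o = 1 ∨ o = -1 → ∀ K ≤ n, ∀ (x : Pt)
    (V : Type) [NormedAddCommGroup V] [InnerProductSpace ℝ V] [FiniteDimensional ℝ V]
    (s : ℝ) (g : ℤ → ℤ → ℝ) (u v : ℤ → ℤ → V) (X : Finset ℤ), 0 < s →
    Cen (iv K x.2.1) (iv K x.2.2) (iv K x.1) 1 √s 1 (L * t ^ (2 - c) * √s) g u v →
    (∀ z ∉ X, ∀ y, u z y = 0) → (∀ z ∉ X, ∀ y, v z y = 0) →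
    (avg (iv K x.1) (ind X)) * (t ^ 2 * √s) ≤ L * (t ^ a * s) →
    cosA (fun k z => ¬ cst (t ^ (-d)) (nrt (fun p => g p.1 p.2) u v) K k z) o K x
        (comp (fun p => g p.1 p.2) u v) (fun k _ => F1 k) (fun k _ => F2 k) (fun k _ => F3 k) ≤
      C * (t ^ (1 + gam) * s ^ (5 / 4 : ℝ) * √ez * 8 ^ K)

/-- the active set of class data: both vector edges vanish outside of `X`, which has density at
most `B` -/
structure Act {ι : Type*} (K : ℕ) (x : Pt) (B : ℝ) (X : Finset ℤ) (u v : ℤ → ℤ → ι → ℝ) :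
    Prop where
  u_off : ∀ z ∉ X, ∀ y, u z y = 0
  v_off : ∀ z ∉ X, ∀ y, v z y = 0
  dens : avg (iv K x.1) (ind X) ≤ B

/-- **CE1, one row class with its active set**, alive nodes of scalar majorants.  The density of
the active set is at most `L t ^ (a - 2) √s / r`. -/
def CE1rX : Prop :=
  ∃ a gam c1 d0 del : ℝ, 0 < a ∧ a ≤ 1 / 4000 ∧ 0 < gam ∧ 0 < c1 ∧ 0 < d0 ∧ 0 < del ∧
  ∀ c : ℝ, 0 ≤ c → c ≤ c1 → ∀ d : ℝ, 0 < d → d ≤ d0 →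
  ∀ Kt e cP L : ℝ, 0 < Kt → 1 ≤ e → 0 ≤ cP → 0 ≤ L → ∃ C : ℝ, 0 ≤ C ∧
  ∀ t : ℝ, 0 < t → t ≤ 1 → ∀ (n : ℕ) (ez : ℝ) (F1 F2 F3 : ℕ → Pt → ℝ),
    US n (Kt * t ^ (1 - c)) e cP F1 → US n (Kt * t ^ (1 - c)) e cP F3 → ES n ez cP F2 →
  ∀ o : ℤ, o = 1 ∨ o = -1 → ∀ K ≤ n, ∀ (x : Pt) (ι : Type) [Fintype ι] [DecidableEq ι]
    (s r : ℝ) (U : Tri) (g : ℤ → ℤ → ℝ) (u v : ℤ → ℤ → ι → ℝ) (X : Finset ℤ), 0 < s → 1 ≤ r →
    Cls K x s r (L * t ^ (2 - c) * √s) U g u v →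
    Act K x (L * (t ^ (a - 2) * √s) / r) X u v →
    cosA (fun k z => ¬ cst (t ^ (-d)) U K k z) o K x (cmp g u v)
        (fun k _ => F1 k) (fun k _ => F2 k) (fun k _ => F3 k) ≤
      C * (t ^ (1 + gam) * s ^ (5 / 4 : ℝ) * √ez * 8 ^ K) * r ^ (-del)

end

end Vale.Agent.P141.H198
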