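import Vale.Agent.P141.H650.Spec.CE1N

/-!
# P141, line (A): row classes of the label vertex

`CE1r`: the statement `CE1n` for data whose rows at the label vertex are at most `r √s`, whose
columns are at most `2 √s / r`, with the additional factor `r ^ (-del)`; `r ≥ 1`.
`ce1n_of_ce1r : CE1r → CE1n`: the label points are sorted by the size of their rows,
class `i` has `r = 2 ^ i`, and the classes are summed.
-/

namespace Vale.Agent.P141.H198

open Finset
open Vale.Agent.P141.PL (Pt loc)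
open Vale.Agent.P141.PL.H315 (iv cube3 avg)
open Vale.Agent.P141.PL.H560 (cbs bx0 loc_sum0)
open Vale.Agent.P141.H48 (US ES)
open Vale.Agent.P141.H572 (cosF)
open Vale.Agent.P141.H136 (comp)
open Vale.Agent.P141.H971 (Cen)

noncomputable section

/-- **CE1n on a row class**: rows at the label vertex at most `r √s`, columns at most
`2 √s / r`, gain `r ^ (-del)`. -/
def CE1r : Prop :=
  ∃ gam c1 del : ℝ, 0 < gam ∧ 0 < c1 ∧ 0 < del ∧ ∀ c : ℝ, 0 ≤ c → c ≤ c1 →
  ∀ Kt e cP L : ℝ, 0 < Kt → 1 ≤ e → 0 ≤ cP → 0 ≤ L → ∃ C : ℝ, 0 ≤ C ∧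
  ∀ t : ℝ, 0 < t → t ≤ 1 → ∀ (n : ℕ) (ez : ℝ) (F1 F2 F3 : ℕ → Pt → ℝ),
    US n (Kt * t ^ (1 - c)) e cP F1 → US n (Kt * t ^ (1 - c)) e cP F3 → ES n ez cP F2 →
  ∀ o : ℤ, o = 1 ∨ o = -1 → ∀ K ≤ n, ∀ (x : Pt)
    (V : Type) [NormedAddCommGroup V] [InnerProductSpace ℝ V] [FiniteDimensional ℝ V]
    (s r : ℝ) (g : ℤ → ℤ → ℝ) (u v : ℤ → ℤ → V), 0 < s → 1 ≤ r →
    Cen (iv K x.2.1) (iv K x.2.2) (iv K x.1) 1 √s 1 (L * t ^ (2 - c) * √s) g u v →
    (∀ z ∈ iv K x.1, (avg (iv K x.2.1) fun y => ‖u z y‖ ^ 2) ≤ r * √s) →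
    (∀ y ∈ iv K x.2.1, (avg (iv K x.1) fun z => ‖u z y‖ ^ 2) ≤ 2 * √s / r) →
    cosF o K x (comp (fun p => g p.1 p.2) u v) (fun k _ => F1 k) (fun k _ => F2 k)
        (fun k _ => F3 k) ≤
      C * (t ^ (1 + gam) * r ^ (-del) * s ^ (5 / 4 : ℝ) * √ez * 8 ^ K)

theorem cosF_sum_le (o : ℤ) (K : ℕ) (x : Pt) (I : ℕ) (F0 : ℕ → Pt → ℝ)
    (F1 F2 F3 : ℕ → Pt → Pt → ℝ) :
    cosF o K x (fun p => ∑ i ∈ range I, F0 i p) F1 F2 F3 ≤
      ∑ i ∈ range I, cosF o K x (F0 i) F1 F2 F3 := by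
  unfold cosF
  rw [sum_comm]
  refine sum_le_sum fun k _ => ?_
  rw [← mul_sum]
  refine mul_le_mul_of_nonneg_left ?_ (by positivity)
  rw [sum_comm]
  refine sum_le_sum fun m _ => ?_
  rw [loc_sum0]
  exact abs_sum_le_sum_abs _ _

theorem ex_cls {q : ℝ} (hq : 0 < q) (T : ℝ) : ∃ i : ℕ, T ≤ 2 ^ i * q := by
  obtain ⟨i, hi⟩ := pow_unbounded_of_one_lt (T / q) (one_lt_two (α := ℝ))
  exact ⟨i, ((div_lt_iff₀ hq).1 hi).le⟩

open Classical in
/-- the class of a row of size `T` -/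
def cls {q : ℝ} (hq : 0 < q) (T : ℝ) : ℕ := Nat.find (ex_cls hq T)

theorem le_cls {q : ℝ} (hq : 0 < q) (T : ℝ) : T ≤ 2 ^ cls hq T * q :=
  Nat.find_spec (ex_cls hq T)

theorem lt_of_cls {q : ℝ} (hq : 0 < q) {T : ℝ} {j : ℕ} (h : cls hq T = j + 1) :
    2 ^ j * q < T := by
  have h1 : j < Nat.find (ex_cls hq T) := by
    have : cls hq T = Nat.find (ex_cls hq T) := rfl
    omega
  exact not_le.1 (Nat.find_min (ex_cls hq T) h1)

theorem avg_mono' {X : Type*} {Q : Finset X} {f g : X → ℝ} (h : ∀ x ∈ Q, f x ≤ g x) :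
    avg Q f ≤ avg Q g := by
  unfold Vale.Agent.P141.PL.H315.avg
  exact mul_le_mul_of_nonneg_left (sum_le_sum h) (by positivity)

theorem avg_nonneg' {X : Type*} {Q : Finset X} {f : X → ℝ} (h : ∀ x ∈ Q, 0 ≤ f x) :
    0 ≤ avg Q f := by
  unfold Vale.Agent.P141.PL.H315.avg
  exact mul_nonneg (by positivity) (sum_nonneg h)

theorem avg_mul' {X : Type*} (Q : Finset X) (f : X → ℝ) (r : ℝ) :
    (avg Q fun x => r * f x) = r * avg Q f := by
  unfold Vale.Agent.P141.PL.H315.avg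
  rw [← mul_sum]
  ring

variable {V : Type*} [NormedAddCommGroup V] [InnerProductSpace ℝ V]

open Classical in
/-- the vector edge cut to a set of label points -/
def cut (E : ℤ → Prop) (u : ℤ → ℤ → V) : ℤ → ℤ → V := fun z x => if E z then u z x else 0

omit [InnerProductSpace ℝ V] in
theorem norm_cut_le (E : ℤ → Prop) (u : ℤ → ℤ → V) (z x : ℤ) :
    ‖cut E u z x‖ ^ 2 ≤ ‖u z x‖ ^ 2 := by
  unfold cut
  split_ifs
  · exact le_rfl
  · rw [norm_zero, zero_pow two_ne_zero]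
    positivity

/-- centre data may be cut at the label vertex -/
theorem cen_cut {A B C : Finset ℤ} {h p e K : ℝ} {g : ℤ → ℤ → ℝ} {u v : ℤ → ℤ → V}
    (H : Cen A B C h p e K g u v) (E : ℤ → Prop) :
    Cen A B C h p e K g (cut E u) v := by
  refine ⟨H.a_le, H.a_n2, H.a_row, fun z hz x hx => (norm_cut_le E u z x).trans (H.u_le z hz x hx),
    H.v_le, ?_, H.v_en, fun x hx => ?_, fun z hz w => ?_, H.v_pot⟩
  · exact (avg_mono' fun z _ => avg_mono' fun x _ => norm_cut_le E u z x).trans H.u_en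
  · exact (avg_mono' fun z _ => norm_cut_le E u z x).trans (H.u_col x hx)
  · refine le_trans ?_ (H.u_pot z hz w)
    refine avg_mono' fun x _ => ?_
    unfold cut
    split_ifs
    · exact le_rfl
    · rw [inner_zero_left, zero_pow two_ne_zero]
      positivity

theorem comp_cut (g : ℤ × ℤ → ℝ) (u v : ℤ → ℤ → V) (f : ℤ → ℕ) (I : ℕ) {y : ℤ × ℤ × ℤ}
    (hy : f y.1 < I) :
    comp g u v y = ∑ i ∈ range I, comp g (cut (fun z => f z = i) u) v y := by
  rw [sum_eq_single_of_mem (f y.1) (mem_range.2 hy)]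
  · unfold comp cut
    rw [if_pos rfl]
  · intro i _ hi
    unfold comp cut
    rw [if_neg (fun h => hi h.symm), inner_zero_left, mul_zero]

theorem geo_le {ρ : ℝ} (h0 : 0 ≤ ρ) (h1 : ρ < 1) (I : ℕ) :
    ∑ i ∈ range I, ρ ^ i ≤ (1 - ρ)⁻¹ := by
  rw [← tsum_geometric_of_lt_one h0 h1]
  exact Summable.sum_le_tsum _ (fun i _ => pow_nonneg h0 i) (summable_geometric_of_lt_one h0 h1)

theorem pow_rpow_neg (del : ℝ) (i : ℕ) : ((2 : ℝ) ^ i) ^ (-del) = ((2 : ℝ) ^ (-del)) ^ i := by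
  rw [← Real.rpow_natCast, ← Real.rpow_natCast, ← Real.rpow_mul (by norm_num),
    ← Real.rpow_mul (by norm_num), mul_comm]

/-- **The row classes**: `CE1r → CE1n`. -/
theorem ce1n_of_ce1r (H : CE1r) : H650.CE1n := by
  obtain ⟨gam, c1, del, hg, hc1, hdel, H⟩ := H
  refine ⟨gam, c1, hg, hc1, fun c hc hcc Kt e cP L hKt he hcP hL => ?_⟩
  obtain ⟨C, hC, H⟩ := H c hc hcc Kt e cP L hKt he hcP hL
  have hρ1 : (2 : ℝ) ^ (-del) < 1 :=
    Real.rpow_lt_one_of_one_lt_of_neg (by norm_num) (by linarith)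
  have hρ0 : (0 : ℝ) ≤ (2 : ℝ) ^ (-del) := by positivity
  refine ⟨C * (1 - (2 : ℝ) ^ (-del))⁻¹, mul_nonneg hC (inv_nonneg.2 (by linarith)), ?_⟩
  intro t ht ht1 n ez F1 F2 F3 h1 h3 h2 o ho K hK x V _ _ _ s g u v hs hCen
  have hq : 0 < √s := Real.sqrt_pos.2 hs
  set T : ℤ → ℝ := fun z => avg (iv K x.2.1) fun y => ‖u z y‖ ^ 2 with hT
  set f : ℤ → ℕ := fun z => cls hq (T z) with hf
  set I : ℕ := (iv K x.1).sup f + 1 with hI
  have hfI : ∀ z ∈ iv K x.1, f z < I := fun z hz => Nat.lt_succ_of_le (le_sup hz)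
  have hT0 : ∀ z, 0 ≤ T z := fun z => avg_nonneg' fun y _ => by positivity
  have hTs : avg (iv K x.1) T ≤ s := by
    have h := hCen.u_en
    rwa [one_mul, Real.sq_sqrt hs.le] at h
  have e1 : cosF o K x (comp (fun p => g p.1 p.2) u v) (fun k _ => F1 k) (fun k _ => F2 k)
      (fun k _ => F3 k) = cosF o K x (fun y => ∑ i ∈ range I,
        comp (fun p => g p.1 p.2) (cut (fun z => f z = i) u) v y) (fun k _ => F1 k)
        (fun k _ => F2 k) (fun k _ => F3 k) := by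
    refine H650.cosF_congr fun y hy => ?_
    refine comp_cut _ u v f I (hfI y.1 ?_)
    rw [PL.H317.cube3_eq] at hy
    have h := PL.mem_cb.1 hy
    rw [PL.H315.mem_iv]
    exact congrArg Prod.fst h
  rw [e1]
  refine (cosF_sum_le o K x I _ _ _ _).trans ?_
  have key : ∀ i ∈ range I, cosF o K x
      (comp (fun p => g p.1 p.2) (cut (fun z => f z = i) u) v) (fun k _ => F1 k)
        (fun k _ => F2 k) (fun k _ => F3 k) ≤
      C * (t ^ (1 + gam) * ((2 : ℝ) ^ (-del)) ^ i * s ^ (5 / 4 : ℝ) * √ez * 8 ^ K) := by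
    intro i _
    rw [← pow_rpow_neg]
    refine H t ht ht1 n ez F1 F2 F3 h1 h3 h2 o ho K hK x V s (2 ^ i) g _ v hs
      (one_le_pow₀ (by norm_num)) (cen_cut hCen _) ?_ ?_
    · intro z _
      by_cases hz : f z = i
      · have e2 : (avg (iv K x.2.1) fun y => ‖cut (fun z => f z = i) u z y‖ ^ 2) = T z := by
          unfold cut
          simp only [hz, if_true, hT]
        rw [e2, ← hz]
        exact le_cls hq (T z)
      · have e2 : (avg (iv K x.2.1) fun y => ‖cut (fun z => f z = i) u z y‖ ^ 2) = 0 := by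
          unfold cut PL.H315.avg
          simp [hz]
        rw [e2]
        positivity
    · intro y hy
      rcases i with _ | j
      · refine ((cen_cut hCen _).u_col y hy).trans ?_
        rw [pow_zero, div_one]
        linarith
      · have b1 : (avg (iv K x.1) fun z => ‖cut (fun z => f z = j + 1) u z y‖ ^ 2) ≤
            avg (iv K x.1) fun z => (2 ^ j * √s)⁻¹ * T z := by
          refine avg_mono' fun z hz => ?_
          by_cases hz' : f z = j + 1
          · have hl := lt_of_cls hq hz'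
            have hu := hCen.u_le z hz y hy
            rw [one_pow, one_mul] at hu
            have hp : (0 : ℝ) < 2 ^ j * √s := by positivity
            refine ((norm_cut_le _ u z y).trans hu).trans ?_
            rw [← inv_mul_cancel₀ hp.ne']
            exact mul_le_mul_of_nonneg_left hl.le (inv_nonneg.2 hp.le)
          · unfold cut
            rw [if_neg hz', norm_zero, zero_pow two_ne_zero]
            exact mul_nonneg (by positivity) (hT0 z)
        refine b1.trans ?_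
        rw [avg_mul']
        refine (mul_le_mul_of_nonneg_left hTs (by positivity)).trans (le_of_eq ?_)
        have hss : √s * √s = s := Real.mul_self_sqrt hs.le
        rw [pow_succ]
        field_simp
        nlinarith [hss]
  refine (sum_le_sum key).trans ?_
  have e3 : ∑ i ∈ range I,
      C * (t ^ (1 + gam) * ((2 : ℝ) ^ (-del)) ^ i * s ^ (5 / 4 : ℝ) * √ez * 8 ^ K) =
      (C * (t ^ (1 + gam) * s ^ (5 / 4 : ℝ) * √ez * 8 ^ K)) *
        ∑ i ∈ range I, ((2 : ℝ) ^ (-del)) ^ i := by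
    rw [mul_sum]
    exact sum_congr rfl fun i _ => by ring
  rw [e3]
  have hnn : 0 ≤ C * (t ^ (1 + gam) * s ^ (5 / 4 : ℝ) * √ez * 8 ^ K) := by positivity
  refine (mul_le_mul_of_nonneg_left (geo_le hρ0 hρ1 I) hnn).trans (le_of_eq ?_)
  ring

end

end Vale.Agent.P141.H198
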